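import Crest.Agent.Helper82.OT.LagCont
import Crest.Agent.Helper82.SD.Split
import Crest.Agent.Helper5.OT.MvalMassCore

/-!
# Row 82 (S0109) — WP-L3 completed: `Mval_mass_le` and `mass_deriv` in the exact shape of
`Crest.Agent.Helper75.OT.Spec`, sorry-free.

`Mval_mass_le` is helper5's `Mval_mass_le_core` fed with the two cell facts it needs
(measurability of `Lag`, splitting of integrals over the cells), which are proved here from the
raw-cell theory; `mass_deriv` is `mass_deriv_of_le` applied to it.
-/

set_option autoImplicit false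

noncomputable section

open MeasureTheory Filter Topology
open scoped ENNReal NNReal RealInnerProductSpace

namespace Crest.Agent.Helper82.OT

open Crest.AnalysisR.OT Crest.Agent.Helper82 Crest.Agent.Helper75.OT

variable {d : ℕ}

/-- The cells `Lag K S w c` are closed (`K` compact). -/
theorem isClosed_Lag_aux {K : Set (E d)} (hKc : IsCompact K) (S : Finset (E d)) (w : E d → ℝ)
    (c : E d) : IsClosed (Lag K S w c) := by
  have : Lag K S w c = K ∩ ⋂ c' ∈ S, {x : E d | ⟪x, c'⟫ - w c' ≤ ⟪x, c⟫ - w c} := by
    ext x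
    simp [Lag]
  rw [this]
  exact hKc.isClosed.inter (isClosed_biInter fun c' _ => isClosed_le (by fun_prop) (by fun_prop))

theorem measurableSet_Lag_aux {K : Set (E d)} (hKc : IsCompact K) (S : Finset (E d))
    (w : E d → ℝ) (c : E d) : MeasurableSet (Lag K S w c) :=
  (isClosed_Lag_aux hKc S w c).measurableSet

/-- Integrals split over the cells (`Spec.sum_integral_Lag`, proved via the raw cells). -/
theorem sum_integral_Lag_aux {K : Set (E d)} (hK : Body K) (S : Finset (E d)) (hS : S.Nonempty)
    (w : E d → ℝ) {F : Type} [NormedAddCommGroup F] [NormedSpace ℝ F] (f : E d → F)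
    (hf : Integrable f (uniformProbOn K)) :
    ∑ c ∈ S, ∫ x in Lag K S w c, f x ∂(uniformProbOn K) = ∫ x, f x ∂(uniformProbOn K) := by
  have : Nonempty ↥S := hS.to_subtype
  have hcompl := SD.uniformProbOn_compl hK.compact.measurableSet
  rw [← Finset.sum_coe_sort S (fun c => ∫ x in Lag K S w c, f x ∂(uniformProbOn K))]
  have h1 : ∀ i : ↥S, ∫ x in Lag K S w i, f x ∂(uniformProbOn K)
      = ∫ x in SD.cell (fun i : ↥S => (i : E d)) (fun i : ↥S => w i) i, f x
          ∂(uniformProbOn K) := by
    intro i
    have hL := Lag_eq_inter_cell K S w i.2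
    simp only [Subtype.coe_eta] at hL
    rw [hL]
    apply setIntegral_congr_set
    rw [ae_eq_set]
    constructor
    · have : (K ∩ SD.cell (fun i : ↥S => (i : E d)) (fun i : ↥S => w i) i)
          \ SD.cell (fun i : ↥S => (i : E d)) (fun i : ↥S => w i) i = ∅ := by
        ext x
        simp only [Set.mem_sdiff, Set.mem_inter_iff, Set.mem_empty_iff_false, iff_false]
        tauto
      rw [this, measure_empty]
    · refine measure_mono_null ?_ hcompl
      intro x hx hxK
      exact hx.2 ⟨hxK, hx.1⟩
  simp only [h1]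
  exact SD.sum_setIntegral_cell (uniformProbOn K)
    (fun v t hv => SD.uniformProbOn_hyperplane K v hv t)
    (fun i : ↥S => (i : E d)) Subtype.val_injective (fun i : ↥S => w i) f hf

end Crest.Agent.Helper82.OT

namespace Crest.Agent.Helper75.OT

open Crest.AnalysisR.OT Crest.Agent.Helper82

variable {d : ℕ}

/-- **Spec.Mval_mass_le**: supergradient inequality in the masses (no positivity needed). -/
theorem Mval_mass_le {K : Set (E d)} (hK : Body K) (S : Finset (E d)) (hS : S.Nonempty)
    (g g' w w' : E d → ℝ) (hw : IsLagWeights K S g w) (hw' : IsLagWeights K S g' w') :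
    Mval K S w' ≤ Mval K S w + ∑ c ∈ S, (g' c - g c) * w c := by
  have hprob := SD.isProbabilityMeasure_uniformProbOn hK.compact hK.inter
  exact Mval_mass_le_core hK.compact inferInstance
    (SD.uniformProbOn_compl hK.compact.measurableSet) S
    (fun v c => Helper82.OT.measurableSet_Lag_aux hK.compact S v c)
    (fun v f hf => Helper82.OT.sum_integral_Lag_aux hK S hS v f hf) g g' w w' hw hw'

/-- **Spec.mass_deriv**: derivative of `Mval` in a mass direction. -/
theorem mass_deriv {K : Set (E d)} (hK : Body K) (S : Finset (E d)) (hS : S.Nonempty)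
    (g Θ : E d → ℝ) (hg : ∀ c ∈ S, 0 < g c) (hsum : ∑ c ∈ S, g c = 1)
    (hΘ : ∑ c ∈ S, Θ c = 0) (w : E d → ℝ) (hw : IsLagWeights K S g w) (ws : ℝ → E d → ℝ)
    (hws : ∀ᶠ s in 𝓝[>] (0 : ℝ), IsLagWeights K S (fun c => g c + s * Θ c) (ws s)) :
    Tendsto (fun s => (Mval K S (ws s) - Mval K S w) / s) (𝓝[>] 0)
      (𝓝 (∑ c ∈ S, Θ c * w c)) :=
  mass_deriv_of_le hK S hS (fun g g' w w' h h' => Mval_mass_le hK S hS g g' w w' h h')
    g Θ hg hsum hΘ w hw ws hws

end Crest.Agent.Helper75.OT
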